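import Vale.Agent.P210.FlatBase

/-! First and second order conditions at a boundary point of a convex sublevel set. -/

open Set Filter Topology

namespace Vale.Agent.P210.Convex

variable {E : Type*} [NormedAddCommGroup E] [NormedSpace ℝ E] {g : E → ℝ}

lemma hasDerivAt_quad (y v w : E) (t : ℝ) :
    HasDerivAt (fun t : ℝ => y + t • v + t ^ 2 • w) (v + (2 * t) • w) t := by
  simpa using (((hasDerivAt_id t).smul_const v).const_add y).fun_add ((hasDerivAt_pow 2 t).smul_const w)

lemma first_order (hg : ContDiff ℝ 2 g) (hK : Convex ℝ {x | g x ≤ 0}) {y z : E}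
    (hy : g y = 0) (hz : g z ≤ 0) : fderiv ℝ g y (z - y) ≤ 0 := by
  set φ : ℝ → ℝ := fun t => g (y + t • (z - y)) with hφ
  have h1 : HasDerivAt φ (fderiv ℝ g y (z - y)) 0 := by
    have h2 : HasDerivAt (fun t : ℝ => y + t • (z - y)) (z - y) 0 := by
      simpa using ((hasDerivAt_id (0 : ℝ)).smul_const (z - y)).const_add y
    exact ((hg.differentiable (by norm_num)) y).hasFDerivAt.comp_hasDerivAt_of_eq 0 h2 (by simp)
  refine le_of_tendsto ((hasDerivAt_iff_tendsto_slope.1 h1).mono_left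
    (nhdsWithin_mono 0 (show Ioi (0:ℝ) ⊆ {0}ᶜ from fun t ht => ne_of_gt ht))) ?_
  filter_upwards [Ioo_mem_nhdsGT (zero_lt_one' ℝ)] with t ht
  rw [slope_def_field]
  refine div_nonpos_of_nonpos_of_nonneg ?_ (by linarith [ht.1])
  have : g (y + t • (z - y)) ≤ 0 :=
    hK.add_smul_sub_mem (show g y ≤ 0 from hy.le) hz ⟨ht.1.le, ht.2.le⟩
  simp only [hφ, zero_smul, add_zero, hy]
  linarith

/-- A boundary point is not interior. -/
lemma fderiv_eq_zero_of_nhds {y : E} (hy : g y = 0) (h : ∀ᶠ x in 𝓝 y, g x ≤ 0) : fderiv ℝ g y = 0 :=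
  IsLocalMax.fderiv_eq_zero (f := g) (by
    show ∀ᶠ x in 𝓝 y, g x ≤ g y
    simpa [hy] using h)

/-- The derivative is negative at directions towards the interior. -/
lemma first_order_strict (hg : ContDiff ℝ 2 g) (hK : Convex ℝ {x | g x ≤ 0}) {y z : E}
    (hy : g y = 0) (hD : fderiv ℝ g y ≠ 0) (hz : g z < 0) : fderiv ℝ g y (z - y) < 0 := by
  refine lt_of_le_of_ne (first_order hg hK hy hz.le) fun he => hD ?_
  ext w
  have hev : ∀ᶠ s in 𝓝 (0:ℝ), g (z + s • w) < 0 := by
    have hc : Continuous fun s : ℝ => g (z + s • w) := hg.continuous.comp (by fun_prop)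
    exact hc.continuousAt.eventually (gt_mem_nhds (by simpa using hz))
  have h : ∀ s, g (z + s • w) < 0 → s * fderiv ℝ g y w ≤ 0 := fun s hs => by
    have h2 := first_order hg hK hy hs.le
    rw [add_sub_right_comm, map_add, he, map_smul, zero_add, smul_eq_mul] at h2
    exact h2
  obtain ⟨ε, hε, hball⟩ := Metric.eventually_nhds_iff.1 hev
  have hp := h (ε / 2) (hball (by rw [dist_zero_right, Real.norm_eq_abs, abs_of_pos (by linarith)]; linarith))
  have hn := h (-(ε / 2)) (hball (by rw [dist_zero_right, Real.norm_eq_abs, abs_neg, abs_of_pos (by linarith)]; linarith))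
  simp only [zero_apply]
  nlinarith

/-- Convexity makes the second derivative nonnegative on the tangent hyperplane. -/
lemma hess_nonneg (hg : ContDiff ℝ 2 g) (hK : Convex ℝ {x | g x ≤ 0}) {y v : E}
    (hy : g y = 0) (hD : fderiv ℝ g y ≠ 0) (hv : fderiv ℝ g y v = 0) :
    0 ≤ fderiv ℝ (fderiv ℝ g) y v v := by
  have hd := hg.differentiable (by norm_num)
  have hd2 : Differentiable ℝ (fderiv ℝ g) :=
    (hg.fderiv_right (m := 1) (by norm_num)).differentiable (by norm_num)
  have hl : ∀ t : ℝ, HasDerivAt (fun t : ℝ => y + t • v) v t := fun t => by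
    simpa using ((hasDerivAt_id t).smul_const v).const_add y
  have h1 : ∀ t : ℝ, HasDerivAt (fun t : ℝ => -g (y + t • v)) (-fderiv ℝ g (y + t • v) v) t :=
    fun t => ((hd _).hasFDerivAt.comp_hasDerivAt t (hl t)).neg
  have h2 : HasDerivAt (fun t : ℝ => -fderiv ℝ g (y + t • v) v) (-fderiv ℝ (fderiv ℝ g) y v v) 0 := by
    have := ((hd2 y).hasFDerivAt.comp_hasDerivAt_of_eq 0 (hl 0) (by simp))
    simpa using (this.clm_apply (hasDerivAt_const 0 v)).fun_neg
  have hmax : IsLocalMax (fun t : ℝ => -g (y + t • v)) 0 := by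
    refine Filter.Eventually.of_forall fun t => ?_
    simp only [zero_smul, add_zero, hy, neg_zero, Left.neg_nonpos_iff]
    by_contra hlt
    push Not at hlt
    have := first_order_strict hg hK hy hD hlt
    simp [hv] at this
  linarith [(second_deriv_nonpos (Filter.Eventually.of_forall h1) h2 hmax).2]

/-- An inner quadratic curve touching the boundary. -/
lemma curve_conditions (hg : ContDiff ℝ 2 g) {y v w : E} (hy : g y = 0)
    (h : ∀ᶠ t in 𝓝 (0:ℝ), g (y + t • v + t ^ 2 • w) ≤ 0) :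
    fderiv ℝ g y v = 0 ∧ fderiv ℝ (fderiv ℝ g) y v v + 2 * fderiv ℝ g y w ≤ 0 := by
  have hd := hg.differentiable (by norm_num)
  have hd2 : Differentiable ℝ (fderiv ℝ g) :=
    (hg.fderiv_right (m := 1) (by norm_num)).differentiable (by norm_num)
  have h1 : ∀ t : ℝ, HasDerivAt (fun t : ℝ => g (y + t • v + t ^ 2 • w))
      (fderiv ℝ g (y + t • v + t ^ 2 • w) (v + (2 * t) • w)) t :=
    fun t => (hd _).hasFDerivAt.comp_hasDerivAt t (hasDerivAt_quad y v w t)
  have h2 : HasDerivAt (fun t : ℝ => fderiv ℝ g (y + t • v + t ^ 2 • w) (v + (2 * t) • w))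
      (fderiv ℝ (fderiv ℝ g) y v v + 2 * fderiv ℝ g y w) 0 := by
    have hA := (hd2 y).hasFDerivAt.comp_hasDerivAt_of_eq 0 (hasDerivAt_quad y v w 0) (by simp)
    have hB : HasDerivAt (fun t : ℝ => v + (2 * t) • w) ((2:ℝ) • w) 0 := by
      simpa using (((hasDerivAt_id (0:ℝ)).const_mul 2).smul_const w).const_add v
    simpa using hA.clm_apply hB
  have hmax : IsLocalMax (fun t : ℝ => g (y + t • v + t ^ 2 • w)) 0 := by
    show ∀ᶠ t in 𝓝 (0:ℝ), _
    simpa [hy] using h
  obtain ⟨h3, h4⟩ := second_deriv_nonpos (Filter.Eventually.of_forall h1) h2 hmax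
  exact ⟨by simpa using h3, h4⟩

end Vale.Agent.P210.Convex
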