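import Mathlib

/-! The scalar curvature condition for the zero set of a function. -/

namespace Vale.Agent.P210.Convex

variable {E : Type*} [NormedAddCommGroup E] [InnerProductSpace ℝ E]

/-- The second derivative of `g` at `y`. -/
noncomputable def hess (g : E → ℝ) (y v w : E) : ℝ := fderiv ℝ (fderiv ℝ g) y v w

/-- Scalar curvature at least one on the zero set: the Gauss equation in orthonormal tangent frames. -/
def ScalGe (n : ℕ) (g : E → ℝ) : Prop :=
  ∀ y, g y = 0 → ∀ v : Fin n → E, Orthonormal ℝ v → (∀ i, fderiv ℝ g y (v i) = 0) →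
    1 ≤ (∑ i, ∑ j, (hess g y (v i) (v i) * hess g y (v j) (v j) - hess g y (v i) (v j) ^ 2))
      / ‖fderiv ℝ g y‖ ^ 2

end Vale.Agent.P210.Convex
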