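import Vale.Agent.P210.Convex.Calculus
import Vale.Agent.P210.Convex.Defs

/-! The scalar curvature at a contact point with an inner ellipsoid, and the bound on inscribed
discs of codimension two. -/

open Set Filter Topology Submodule
open scoped RealInnerProductSpace

namespace Vale.Agent.P210.Convex

variable {E : Type*} [NormedAddCommGroup E] [InnerProductSpace ℝ E] [FiniteDimensional ℝ E]

/-- The quadric `‖x_V‖²/r² + ‖x_W‖²/a²`. -/
noncomputable def quad (V : Submodule ℝ E) (r a : ℝ) (x : E) : ℝ :=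
  ‖V.starProjection x‖ ^ 2 / r ^ 2 + ‖x - V.starProjection x‖ ^ 2 / a ^ 2

/-- Half the gradient of the quadric. -/
noncomputable def quadVec (V : Submodule ℝ E) (r a : ℝ) (x : E) : E :=
  (1 / r ^ 2) • V.starProjection x + (1 / a ^ 2) • (x - V.starProjection x)

lemma orth_parts (V : Submodule ℝ E) (x z : E) :
    ⟪V.starProjection x, z - V.starProjection z⟫ = 0 :=
  inner_right_of_mem_orthogonal (starProjection_apply_mem V x) (sub_starProjection_mem_orthogonal z)

lemma inner_quadVec (V : Submodule ℝ E) (r a : ℝ) (x z : E) :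
    ⟪quadVec V r a x, z⟫ = ⟪V.starProjection x, V.starProjection z⟫ / r ^ 2
      + ⟪x - V.starProjection x, z - V.starProjection z⟫ / a ^ 2 := by
  have e1 := orth_parts V x z
  have e2 := orth_parts V z x
  have ez : z = V.starProjection z + (z - V.starProjection z) := by abel
  rw [quadVec, inner_add_left, real_inner_smul_left, real_inner_smul_left]
  conv_lhs => rw [ez]
  rw [inner_add_right, inner_add_right, e1,
    show ⟪x - V.starProjection x, V.starProjection z⟫ = 0 from (real_inner_comm _ _).trans e2]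
  ring

lemma inner_quadVec_self (V : Submodule ℝ E) (r a : ℝ) (x : E) :
    ⟪quadVec V r a x, x⟫ = quad V r a x := by
  rw [inner_quadVec, real_inner_self_eq_norm_sq, real_inner_self_eq_norm_sq, quad]

lemma norm_sq_parts (V : Submodule ℝ E) (x : E) :
    ‖x‖ ^ 2 = ‖V.starProjection x‖ ^ 2 + ‖x - V.starProjection x‖ ^ 2 := by
  have h := norm_add_sq_real (V.starProjection x) (x - V.starProjection x)
  rw [orth_parts, show V.starProjection x + (x - V.starProjection x) = x by abel] at h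
  linarith

lemma quad_curve (V : Submodule ℝ E) (r a : ℝ) {y v : E} (hv : ⟪quadVec V r a y, v⟫ = 0)
    (s t : ℝ) : quad V r a (s • y + t • v) = s ^ 2 * quad V r a y + t ^ 2 * quad V r a v := by
  have e : ⟪quadVec V r a y, v⟫ = ⟪quadVec V r a v, y⟫ := by
    rw [inner_quadVec, inner_quadVec, real_inner_comm (V.starProjection v),
      real_inner_comm (v - V.starProjection v)]
  have h2 : ⟪quadVec V r a v, y⟫ = 0 := e ▸ hv
  have hlin : quadVec V r a (s • y + t • v) = s • quadVec V r a y + t • quadVec V r a v := by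
    simp only [quadVec, map_add, map_smul]
    module
  rw [← inner_quadVec_self, hlin, inner_add_left, inner_add_right, inner_add_right]
  simp only [real_inner_smul_left, real_inner_smul_right, hv, h2, inner_quadVec_self]
  ring

/-- The quadric on a tangent vector in the span of `V` and the transversal part of `y`. -/
lemma quad_tangent {V : Submodule ℝ E} {r a : ℝ} (hr : 0 < r) (ha : 0 < a) {y v x : E} {b : ℝ}
    (hmid : ‖V.starProjection y‖ ≤ r / 2) (hw : 3 / 4 * a ^ 2 ≤ ‖y - V.starProjection y‖ ^ 2)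
    (hx : x ∈ V) (hxb : x + b • (y - V.starProjection y) = v) (hv : ‖v‖ = 1)
    (h0 : ⟪quadVec V r a y, v⟫ = 0) : quad V r a v ≤ 4 / (3 * r ^ 2) := by
  set p := V.starProjection y with hp
  set w₀ := y - p with hw₀
  have hP : V.starProjection v = x := by
    rw [← hxb, map_add, map_smul, starProjection_eq_self_iff.2 hx,
      (starProjection_apply_eq_zero_iff V).2 (sub_starProjection_mem_orthogonal y)]
    simp
  have hW : v - x = b • w₀ := by rw [← hxb]; abel
  rw [inner_quadVec, hP, hW, ← hp, ← hw₀, real_inner_smul_right, real_inner_self_eq_norm_sq] at h0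
  have hx1 : ‖x‖ ^ 2 ≤ 1 := by
    have := norm_sq_parts V v
    rw [hP, hv] at this
    nlinarith [sq_nonneg ‖v - x‖]
  have hpx := abs_real_inner_le_norm p x
  set t := ‖w₀‖ ^ 2 / a ^ 2 with ht
  have ht34 : 3 / 4 ≤ t := by rw [ht, le_div_iff₀ (by positivity)]; exact hw
  have hbt : (b * t) ^ 2 ≤ 1 / (4 * r ^ 2) := by
    have e : b * t = -(⟪p, x⟫ / r ^ 2) := by rw [ht, mul_div_assoc']; linarith
    rw [e, neg_sq, div_pow, div_le_div_iff₀ (by positivity) (by positivity)]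
    have : ⟪p, x⟫ ^ 2 ≤ (r / 2) ^ 2 * 1 := by
      rw [← sq_abs]
      calc |⟪p, x⟫| ^ 2 ≤ (‖p‖ * ‖x‖) ^ 2 := pow_le_pow_left₀ (abs_nonneg _) hpx 2
        _ ≤ _ := by
          rw [mul_pow]
          exact mul_le_mul (pow_le_pow_left₀ (norm_nonneg _) hmid 2) hx1 (sq_nonneg _)
            (sq_nonneg _)
    nlinarith [pow_pos hr 2]
  have e : quad V r a v = ‖x‖ ^ 2 / r ^ 2 + b ^ 2 * t := by
    rw [quad, hP, hW, norm_smul, mul_pow, Real.norm_eq_abs, sq_abs, ht]; ring
  have h3 : b ^ 2 * t * (3 / 4) ≤ 1 / (4 * r ^ 2) := by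
    refine le_trans ?_ hbt
    rw [mul_pow, mul_assoc, sq t]
    exact mul_le_mul_of_nonneg_left (mul_le_mul_of_nonneg_left ht34 (by linarith)) (sq_nonneg _)
  have h4 : ‖x‖ ^ 2 / r ^ 2 ≤ 1 / r ^ 2 := by gcongr
  rw [e, show (4:ℝ) / (3 * r ^ 2) = 1 / r ^ 2 + 4 / 3 * (1 / (4 * r ^ 2)) by ring]
  linarith

/-- The algebra at the contact point. -/
lemma curvature_arith {k r a lam D2 N2 h0 B S : ℝ} (hk : 1 ≤ k) (ha : 0 < a) (har : a ≤ r)
    (hl : 0 < lam) (hD : D2 = lam ^ 2 * N2) (hN : 3 / (4 * a ^ 2) ≤ N2) 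
    (hh : h0 ≤ lam * (1 / a ^ 2)) (hB0 : 0 ≤ B) (hB : B ≤ lam * (k * (4 / (3 * r ^ 2))))
    (hS1 : D2 ≤ S) (hS2 : S ≤ 2 * h0 * B + B ^ 2) : r ≤ 3 * (k + 1) := by
  have hr : 0 < r := lt_of_lt_of_le ha har
  have hk0 : 0 ≤ k := by linarith
  set c := k * (4 / (3 * r ^ 2)) with hc
  have hc0 : 0 ≤ c := by positivity
  have hkey : 3 / (4 * a ^ 2) ≤ 2 * (1 / a ^ 2) * c + c ^ 2 := by
    have h1 : lam ^ 2 * (3 / (4 * a ^ 2)) ≤ D2 := by
      rw [hD]; exact mul_le_mul_of_nonneg_left hN (sq_nonneg _)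
    have h2 : 2 * h0 * B + B ^ 2 ≤ lam ^ 2 * (2 * (1 / a ^ 2) * c + c ^ 2) := by
      have := mul_le_mul hh hB hB0 (by positivity)
      nlinarith [pow_le_pow_left₀ hB0 hB 2]
    exact le_of_mul_le_mul_left (by linarith) (pow_pos hl 2)
  have hc2 : c ^ 2 ≤ 1 / a ^ 2 * (k * (4 / 3) * c) := by
    have : c ≤ 1 / a ^ 2 * (k * (4 / 3)) := by
      rw [hc, show k * (4 / (3 * r ^ 2)) = 1 / r ^ 2 * (k * (4 / 3)) by ring]
      gcongr
    calc c ^ 2 = c * c := sq c
      _ ≤ 1 / a ^ 2 * (k * (4 / 3)) * c := mul_le_mul_of_nonneg_right this hc0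
      _ = _ := by ring
  have h3 : 3 / 4 ≤ (2 + k * (4 / 3)) * c := by
    refine le_of_mul_le_mul_left ?_ (show (0:ℝ) < 1 / a ^ 2 by positivity)
    rw [show 1 / a ^ 2 * (3 / 4 : ℝ) = 3 / (4 * a ^ 2) by ring]
    linarith
  have h4 : 3 / 4 * r ^ 2 ≤ (2 + k * (4 / 3)) * (k * (4 / 3)) := by
    have e : c * r ^ 2 = k * (4 / 3) := by rw [hc]; field_simp
    calc 3 / 4 * r ^ 2 ≤ (2 + k * (4 / 3)) * c * r ^ 2 :=
          mul_le_mul_of_nonneg_right h3 (sq_nonneg r)
      _ = _ := by rw [mul_assoc, e]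
  nlinarith

/-- At a contact point the derivative is a positive multiple of the gradient of the quadric. -/
lemma normal_eq {g : E → ℝ} (hg : ContDiff ℝ 2 g) (hK : Convex ℝ {x | g x ≤ 0})
    {V : Submodule ℝ E} {r a : ℝ} {y : E} (hy : g y = 0) (hD : fderiv ℝ g y ≠ 0)
    (hqy : quad V r a y = 1) (hin : ∀ x, quad V r a x ≤ 1 → g x ≤ 0) :
    0 < fderiv ℝ g y y ∧ ∀ x, fderiv ℝ g y x = fderiv ℝ g y y * ⟪quadVec V r a y, x⟫ := by
  set D := fderiv ℝ g y with hDdef
  set N := quadVec V r a y with hN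
  have hNy : ⟪N, y⟫ = 1 := by rw [hN, inner_quadVec_self, hqy]
  have hker : ∀ v, ⟪N, v⟫ = 0 → D v = 0 := by
    intro v hv
    set k := |quad V r a v| + 1 with hk
    refine (curve_conditions hg hy (w := -k • y) ?_).1
    have hc : Continuous fun t : ℝ => k ^ 2 * t ^ 2 + quad V r a v - 2 * k := by fun_prop
    have hneg : k ^ 2 * (0:ℝ) ^ 2 + quad V r a v - 2 * k < 0 := by
      norm_num; linarith [le_abs_self (quad V r a v), abs_nonneg (quad V r a v)]
    filter_upwards [hc.continuousAt.eventually (gt_mem_nhds hneg)] with t ht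
    refine hin _ ?_
    rw [show y + t • v + t ^ 2 • (-k • y) = (1 - k * t ^ 2) • y + t • v by module,
      quad_curve V r a hv, hqy]
    nlinarith [sq_nonneg t, mul_nonpos_of_nonneg_of_nonpos (sq_nonneg t) ht.le]
  have hDeq : ∀ x, D x = D y * ⟪N, x⟫ := by
    intro x
    have h := hker (x - ⟪N, x⟫ • y) (by rw [inner_sub_right, real_inner_smul_right, hNy]; ring)
    rw [map_sub, map_smul, smul_eq_mul] at h
    linarith
  refine ⟨?_, hDeq⟩
  have h1 := first_order hg hK hy (hin 0 (by simp [quad]))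
  rw [zero_sub, map_neg] at h1
  refine lt_of_le_of_ne (by rw [hDdef]; linarith) (fun e => hD ?_)
  ext x
  rw [hDeq, ← e]
  simp

/-- An orthonormal frame of the tangent hyperplane adapted to the quadric. -/
lemma exists_frame {m : ℕ} (hdim : Module.finrank ℝ E = m + 3) {V : Submodule ℝ E}
    (hV : Module.finrank ℝ V = m + 1) {r a : ℝ} (hr : 0 < r) (ha : 0 < a) {y : E}
    (hmid : ‖V.starProjection y‖ ≤ r / 2)
    (hw34 : 3 / 4 * a ^ 2 ≤ ‖y - V.starProjection y‖ ^ 2)
    (hNy : ⟪quadVec V r a y, y⟫ = 1) :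
    ∃ v : Fin (m + 2) → E, Orthonormal ℝ v ∧ (∀ i, ⟪quadVec V r a y, v i⟫ = 0) ∧
      quad V r a (v 0) ≤ 1 / a ^ 2 ∧
      ∀ i : Fin (m + 1), quad V r a (v i.succ) ≤ 4 / (3 * r ^ 2) := by
  set N := quadVec V r a y with hN
  set w₀ := y - V.starProjection y with hw₀
  have hwpos : 0 < ‖w₀‖ := by nlinarith [norm_nonneg w₀, pow_pos ha 2]
  set L : Submodule ℝ E := ℝ ∙ w₀ with hL
  set S := V ⊔ L with hSdef
  have hw0V : w₀ ∈ Vᗮ := sub_starProjection_mem_orthogonal y
  have hw0 : w₀ ≠ 0 := norm_pos_iff.1 hwpos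
  have hSdim : Module.finrank ℝ S = m + 2 := by
    have h := Submodule.finrank_sup_add_finrank_inf_eq V L
    have hbot : V ⊓ L = ⊥ := by
      refine le_antisymm (fun x hx => ?_) bot_le
      have h2 : x ∈ Vᗮ := (span_singleton_le_iff_mem _ _).2 hw0V hx.2
      have := inner_right_of_mem_orthogonal hx.1 h2
      simpa using this
    rw [hbot, finrank_bot, hV, finrank_span_singleton hw0] at h
    omega
  have hNS : N ∈ S := by
    refine add_mem (smul_mem _ _ (mem_sup_left (starProjection_apply_mem V y))) ?_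
    exact smul_mem _ _ (mem_sup_right (mem_span_singleton_self _))
  obtain ⟨z, hzS, hz0⟩ : ∃ z ∈ Sᗮ, z ≠ (0 : E) := by
    refine exists_mem_ne_zero_of_ne_bot fun hbot => ?_
    have h := finrank_add_finrank_orthogonal S
    rw [hbot, finrank_bot, hSdim, hdim] at h
    omega
  set w := ‖z‖⁻¹ • z with hw
  have hwS : w ∈ Sᗮ := smul_mem _ _ hzS
  have hwn : ‖w‖ = 1 := norm_smul_inv_norm hz0
  have hwN : ⟪N, w⟫ = 0 := inner_right_of_mem_orthogonal hNS hwS
  set U := S ⊓ (ℝ ∙ N)ᗮ with hUdef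
  have hUdim : m + 1 ≤ Module.finrank ℝ U := by
    have h := Submodule.finrank_sup_add_finrank_inf_eq S (ℝ ∙ N)ᗮ
    have h1 : Module.finrank ℝ (S ⊔ (ℝ ∙ N)ᗮ : Submodule ℝ E) ≤ m + 3 := hdim ▸ finrank_le _
    have h2 := finrank_add_finrank_orthogonal (ℝ ∙ N)
    rw [finrank_span_singleton (fun e => by rw [e, inner_zero_left] at hNy; exact zero_ne_one hNy),
      hdim] at h2
    rw [← hUdef] at h
    omega
  set bU := stdOrthonormalBasis ℝ U
  set u : Fin (m + 1) → E := fun i => (bU (Fin.castLE hUdim i) : E) with hu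
  have huo : Orthonormal ℝ u :=
    (U.subtypeₗᵢ.orthonormal_comp_iff.2 bU.orthonormal).comp _ (Fin.castLE_injective hUdim)
  have huU : ∀ i, u i ∈ U := fun i => (bU (Fin.castLE hUdim i)).2
  have huN : ∀ i, ⟪N, u i⟫ = 0 := fun i =>
    mem_orthogonal_singleton_iff_inner_right.1 (huU i).2
  set v : Fin (m + 2) → E := Fin.cons w u with hvdef
  have hvo : Orthonormal ℝ v := by
    rw [orthonormal_iff_ite]
    intro i j
    have hwu : ∀ k, ⟪u k, w⟫ = 0 := fun k => inner_right_of_mem_orthogonal (huU k).1 hwS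
    induction i using Fin.cases with
    | zero =>
      induction j using Fin.cases with
      | zero => simp [hvdef, hwn]
      | succ j => simp [hvdef, real_inner_comm (u j), hwu, (Fin.succ_ne_zero j).symm]
    | succ i =>
      induction j using Fin.cases with
      | zero => simp [hvdef, hwu]
      | succ j => simpa [hvdef] using orthonormal_iff_ite.1 huo i j
  have hvN : ∀ i, ⟪N, v i⟫ = 0 := fun i => by
    induction i using Fin.cases with
    | zero => simpa [hvdef] using hwN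
    | succ i => simpa [hvdef] using huN i
  have hqw : quad V r a w ≤ 1 / a ^ 2 := by
    have h1 : V.starProjection w = 0 :=
      (starProjection_apply_eq_zero_iff V).2 (orthogonal_le le_sup_left hwS)
    simp [quad, h1, hwn]
  have hqu : ∀ i, quad V r a (u i) ≤ 4 / (3 * r ^ 2) := by
    intro i
    obtain ⟨x, hx, l, hl, hxl⟩ := mem_sup.1 (huU i).1
    obtain ⟨b, rfl⟩ := mem_span_singleton.1 hl
    exact quad_tangent hr ha hmid hw34 hx hxl (huo.1 i) (huN i)
  exact ⟨v, hvo, hvN, by simpa [hvdef] using hqw, fun i => by simpa [hvdef] using hqu i⟩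

/-- Scalar curvature at a contact point in the middle half of an inner ellipsoid. -/
theorem contact_bound {m : ℕ} {g : E → ℝ} (hg : ContDiff ℝ 2 g) (hK : Convex ℝ {x | g x ≤ 0})
    (hreg : ∀ x, g x = 0 → fderiv ℝ g x ≠ 0) (hS : ScalGe (m + 2) g)
    (hdim : Module.finrank ℝ E = m + 3) {V : Submodule ℝ E} (hV : Module.finrank ℝ V = m + 1)
    {r a : ℝ} (ha : 0 < a) (har : a ≤ r) {y : E} (hy : g y = 0) (hqy : quad V r a y = 1)
    (hin : ∀ x, quad V r a x ≤ 1 → g x ≤ 0) (hmid : ‖V.starProjection y‖ ≤ r / 2) :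
    r ≤ 3 * ((m : ℝ) + 2) := by
  have hr : 0 < r := lt_of_lt_of_le ha har
  set D := fderiv ℝ g y with hDdef
  set H := fderiv ℝ (fderiv ℝ g) y with hHdef
  set N := quadVec V r a y with hN
  have hD : D ≠ 0 := hreg y hy
  have hNy : ⟪N, y⟫ = 1 := by rw [hN, inner_quadVec_self, hqy]
  -- quadratic curves inside the ellipsoid
  have hcurve : ∀ v, ⟪N, v⟫ = 0 → ∀ k, quad V r a v / 2 < k →
      D v = 0 ∧ H v v + 2 * D (-k • y) ≤ 0 := by
    intro v hv k hk
    refine curve_conditions hg hy ?_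
    have hc : Continuous fun t : ℝ => k ^ 2 * t ^ 2 + quad V r a v - 2 * k := by fun_prop
    have hneg : k ^ 2 * (0:ℝ) ^ 2 + quad V r a v - 2 * k < 0 := by norm_num; linarith
    filter_upwards [hc.continuousAt.eventually (gt_mem_nhds hneg)] with t ht
    refine hin _ ?_
    rw [show y + t • v + t ^ 2 • (-k • y) = (1 - k * t ^ 2) • y + t • v by module,
      quad_curve V r a hv, hqy]
    nlinarith [sq_nonneg t, mul_nonpos_of_nonneg_of_nonpos (sq_nonneg t) ht.le]
  have hker : ∀ v, ⟪N, v⟫ = 0 → D v = 0 := fun v hv => (hcurve v hv _ (lt_add_one _)).1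
  obtain ⟨hlam0, hDeq⟩ := normal_eq hg hK hy hD hqy hin
  simp only [← hDdef, ← hN] at hlam0 hDeq
  set lam := D y with hlam
  have hH : ∀ v, ⟪N, v⟫ = 0 → 0 ≤ H v v ∧ H v v ≤ lam * quad V r a v := by
    intro v hv
    refine ⟨hess_nonneg hg hK hy hD (hker v hv), le_of_forall_pos_le_add fun ε hε => ?_⟩
    obtain ⟨-, h⟩ := hcurve v hv (quad V r a v / 2 + ε / (2 * lam))
      (lt_add_of_pos_right _ (by positivity))
    rw [map_smul, smul_eq_mul, ← hlam] at h
    have : ε / (2 * lam) * lam = ε / 2 := by field_simp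
    nlinarith
  have hnormD : ‖D‖ = lam * ‖N‖ := by
    have e : D = lam • innerSL ℝ N := ContinuousLinearMap.ext fun x => by simp [hDeq]
    rw [e, norm_smul, Real.norm_eq_abs, abs_of_pos hlam0, innerSL_apply_norm]
  -- the parts of `y`
  set p := V.starProjection y with hp
  set w₀ := y - p with hw₀
  have hq : ‖p‖ ^ 2 / r ^ 2 + ‖w₀‖ ^ 2 / a ^ 2 = 1 := hqy
  have hp4 : ‖p‖ ^ 2 / r ^ 2 ≤ 1 / 4 := by
    rw [div_le_iff₀ (by positivity)]
    nlinarith [norm_nonneg p]
  have hw34 : 3 / 4 * a ^ 2 ≤ ‖w₀‖ ^ 2 := by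
    rw [← le_div_iff₀ (by positivity)]; linarith
  have hwpos : 0 < ‖w₀‖ := by nlinarith [norm_nonneg w₀, pow_pos ha 2]
  have hN2 : 3 / (4 * a ^ 2) ≤ ‖N‖ ^ 2 := by
    have e : ‖N‖ ^ 2 = ‖p‖ ^ 2 / r ^ 4 + ‖w₀‖ ^ 2 / a ^ 4 := by
      rw [hN, quadVec, norm_add_sq_real, real_inner_smul_left, real_inner_smul_right, orth_parts,
        norm_smul, norm_smul, Real.norm_eq_abs, Real.norm_eq_abs, mul_pow, mul_pow, sq_abs, sq_abs]
      simp only [hw₀, hp, mul_zero]
      ring
    have e1 : 3 / (4 * a ^ 2) ≤ ‖w₀‖ ^ 2 / a ^ 4 := by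
      rw [div_le_div_iff₀ (by positivity) (by positivity)]
      nlinarith [pow_pos ha 2]
    have e2 : 0 ≤ ‖p‖ ^ 2 / r ^ 4 := by positivity
    linarith
  obtain ⟨v, hvo, hvN, hqw, hqu⟩ := exists_frame hdim hV hr ha hmid hw34 hNy
  -- the scalar curvature
  have hsc := hS y hy v hvo (fun i => hker _ (hvN i))
  have hNpos : 0 < ‖N‖ := norm_pos_iff.2 fun e => by rw [e, inner_zero_left] at hNy; exact zero_ne_one hNy
  simp only [hess] at hsc
  rw [← hDdef, ← hHdef, le_div_iff₀ (by rw [hnormD]; positivity), one_mul] at hsc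
  set h : Fin (m + 2) → ℝ := fun i => H (v i) (v i) with hh
  have hh0 : ∀ i, 0 ≤ h i := fun i => (hH _ (hvN i)).1
  have hsum : ∑ i, ∑ j, (h i * h j - H (v i) (v j) ^ 2) ≤ (∑ i, h i) ^ 2 - ∑ i, h i ^ 2 := by
    have h1 : ∑ i, h i ^ 2 ≤ ∑ i, ∑ j, H (v i) (v j) ^ 2 := Finset.sum_le_sum fun i _ =>
      Finset.single_le_sum (f := fun j => H (v i) (v j) ^ 2) (fun j _ => sq_nonneg _)
        (Finset.mem_univ i)
    rw [sq (∑ i, h i), Finset.sum_mul_sum]
    simp only [Finset.sum_sub_distrib]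
    linarith
  set B := ∑ i : Fin (m + 1), h i.succ with hBdef
  have hB0 : 0 ≤ B := Finset.sum_nonneg fun i _ => hh0 _
  have hB : B ≤ lam * (((m : ℝ) + 1) * (4 / (3 * r ^ 2))) := by
    refine (Finset.sum_le_sum (g := fun _ => lam * (4 / (3 * r ^ 2))) fun i _ => ?_).trans
      (le_of_eq (by simp; ring))
    have := (hH _ (hvN i.succ)).2
    simp only [hh] at this ⊢
    exact this.trans (mul_le_mul_of_nonneg_left (hqu i) hlam0.le)
  have h0B : h 0 ≤ lam * (1 / a ^ 2) := by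
    have := (hH _ (hvN 0)).2
    simp only [hh] at this ⊢
    exact this.trans (mul_le_mul_of_nonneg_left hqw hlam0.le)
  rw [Fin.sum_univ_succ h, ← hBdef, Fin.sum_univ_succ (fun i => h i ^ 2)] at hsum
  have hsq : 0 ≤ ∑ i : Fin (m + 1), h i.succ ^ 2 := Finset.sum_nonneg fun i _ => sq_nonneg _
  refine le_of_le_of_eq (curvature_arith (k := (m : ℝ) + 1) (lam := lam) (h0 := h 0) (B := B)
    (by simp) ha har hlam0 (D2 := ‖D‖ ^ 2) (N2 := ‖N‖ ^ 2) (by rw [hnormD, mul_pow]) hN2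
    h0B hB0 hB hsc (hsum.trans ?_)) (by ring)
  nlinarith [sq_nonneg (h 0)]

end Vale.Agent.P210.Convex
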