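import Vale.Agent.P210.Convex.Disc

/-! A convex set without large discs of codimension two lies near an affine subspace of codimension
three. -/

open Set Filter Topology Submodule
open scoped RealInnerProductSpace

namespace Vale.Agent.P210.Convex

variable {E : Type*} [NormedAddCommGroup E] [InnerProductSpace ℝ E] [FiniteDimensional ℝ E]

lemma orth_cons {k : ℕ} {e : E} {v : Fin k → E} (he : ‖e‖ = 1) (hv : Orthonormal ℝ v)
    (h : ∀ i, ⟪e, v i⟫ = 0) : Orthonormal ℝ (Fin.cons e v : Fin (k + 1) → E) := by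
  rw [orthonormal_iff_ite]
  intro i j
  induction i using Fin.cases with
  | zero =>
    induction j using Fin.cases with
    | zero => simp [he]
    | succ j => simp [h, (Fin.succ_ne_zero j).symm]
  | succ i =>
    induction j using Fin.cases with
    | zero => simp [real_inner_comm e, h]
    | succ j => simpa using orthonormal_iff_ite.1 hv i j

lemma exists_unit (F : Submodule ℝ E) (hF : 1 ≤ Module.finrank ℝ F) :
    ∃ e ∈ F, ‖e‖ = (1:ℝ) := by
  obtain ⟨z, hz, hz0⟩ := exists_mem_ne_zero_of_ne_bot (p := F)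
    (fun h => by rw [h, finrank_bot] at hF; omega)
  exact ⟨‖z‖⁻¹ • z, smul_mem _ _ hz, norm_smul_inv_norm hz0⟩

/-- A compact convex set contains a disc of dimension `k + 1` in proportion to its distance from a
subspace of dimension `k`. -/
theorem greedy (k : ℕ) : ∀ F : Submodule ℝ E, k + 1 ≤ Module.finrank ℝ F → ∀ S : Set E,
    IsCompact S → Convex ℝ S → (0:E) ∈ S → S ⊆ F →
    ∃ (c : E) (v : Fin (k + 1) → E) (u : Fin k → E) (R : ℝ), Orthonormal ℝ v ∧ Orthonormal ℝ u ∧
      (∀ i, v i ∈ F) ∧ (∀ i, u i ∈ F) ∧ 0 ≤ R ∧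
      (∀ a : Fin (k + 1) → ℝ, ∑ i, a i ^ 2 ≤ R ^ 2 → c + ∑ i, a i • v i ∈ S) ∧
      ∀ x ∈ S, ‖x - ∑ i, ⟪u i, x⟫ • u i‖ ≤ 2 * 8 ^ k * R := by
  induction k with
  | zero =>
    intro F hF S hS hc h0 hSF
    obtain ⟨p, hp, hmax⟩ := hS.exists_isMaxOn ⟨0, h0⟩ continuous_norm.continuousOn
    obtain ⟨e, heF, hen, hpe⟩ : ∃ e ∈ F, ‖e‖ = (1:ℝ) ∧ p = ‖p‖ • e := by
      rcases eq_or_ne p 0 with h | h
      · obtain ⟨e, h1, h2⟩ := exists_unit F hF
        exact ⟨e, h1, h2, by simp [h]⟩
      · exact ⟨‖p‖⁻¹ • p, smul_mem _ _ (hSF hp), norm_smul_inv_norm h,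
          by rw [smul_inv_smul₀ (norm_ne_zero_iff.2 h)]⟩
    refine ⟨(‖p‖ / 2) • e, fun _ => e, Fin.elim0, ‖p‖ / 2, ?_, ?_, fun _ => heF, fun i => i.elim0,
      by positivity, fun a ha => ?_, fun x hx => ?_⟩
    · exact ⟨fun _ => hen, fun i j hij => absurd (by omega : i = j) hij⟩
    · exact ⟨fun i => i.elim0, fun i => i.elim0⟩
    · simp only [Nat.reduceAdd, Fin.sum_univ_one, Fin.isValue] at ha ⊢
      rw [← add_smul]
      obtain ⟨h1, h2⟩ := abs_le.1 (abs_le_of_sq_le_sq ha (by positivity))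
      rcases eq_or_ne ‖p‖ 0 with h | h
      · have : a 0 = 0 := by rw [h] at h1 h2; linarith
        simp [h, this, h0]
      · have hmem := hc.smul_mem_of_zero_mem h0 hp (t := (‖p‖ / 2 + a 0) / ‖p‖)
          ⟨div_nonneg (by linarith) (norm_nonneg _), (div_le_one (by positivity)).2 (by linarith)⟩
        have e1 : (‖p‖ / 2 + a 0) • e = ((‖p‖ / 2 + a 0) / ‖p‖) • p := by
          conv_rhs => rw [hpe, smul_smul]
          rw [← hpe, div_mul_cancel₀ _ h]
        rwa [e1]
    · simpa using (hmax hx).trans (le_of_eq (by ring))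
  | succ k ih =>
    intro F hF S hS hc h0 hSF
    obtain ⟨p, hp, hmax⟩ := hS.exists_isMaxOn ⟨0, h0⟩ continuous_norm.continuousOn
    obtain ⟨e, heF, hen, hpe⟩ : ∃ e ∈ F, ‖e‖ = (1:ℝ) ∧ p = ‖p‖ • e := by
      rcases eq_or_ne p 0 with h | h
      · obtain ⟨e, h1, h2⟩ := exists_unit F (by omega)
        exact ⟨e, h1, h2, by simp [h]⟩
      · exact ⟨‖p‖⁻¹ • p, smul_mem _ _ (hSF hp), norm_smul_inv_norm h,
          by rw [smul_inv_smul₀ (norm_ne_zero_iff.2 h)]⟩
    set h := ‖p‖ with hh
    have hnorm : ∀ x ∈ S, ‖x‖ ≤ h := fun x hx => hmax hx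
    set P : E →L[ℝ] E := ContinuousLinearMap.id ℝ E - (innerSL ℝ e).smulRight e with hP
    have hPa : ∀ x, P x = x - ⟪e, x⟫ • e := fun x => by simp [hP]
    have hee : ⟪e, e⟫ = 1 := by rw [real_inner_self_eq_norm_sq, hen, one_pow]
    set F' := F ⊓ (ℝ ∙ e)ᗮ with hF'
    have hF'dim : k + 1 ≤ Module.finrank ℝ F' := by
      have h1 := Submodule.finrank_sup_add_finrank_inf_eq F (ℝ ∙ e)ᗮ
      have h2 := finrank_add_finrank_orthogonal (ℝ ∙ e)
      have h3 := Submodule.finrank_le (F ⊔ (ℝ ∙ e)ᗮ)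
      rw [finrank_span_singleton (norm_ne_zero_iff.1 (by rw [hen]; exact one_ne_zero))] at h2
      rw [← hF'] at h1
      omega
    have hPS : P '' S ⊆ F' := by
      rintro _ ⟨x, hx, rfl⟩
      refine ⟨?_, mem_orthogonal_singleton_iff_inner_right.2 ?_⟩
      · rw [hPa]; exact sub_mem (hSF hx) (smul_mem _ _ heF)
      · rw [hPa, inner_sub_right, real_inner_smul_right, hee, mul_one, sub_self]
    obtain ⟨c, v, u, R, hv, hu, hvF, huF, hR, hdisc, hnear⟩ := ih F' hF'dim (P '' S)
      (hS.image P.continuous) (hc.linear_image P.toLinearMap) ⟨0, h0, map_zero P⟩ hPS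
    have hev : ∀ i, ⟪e, v i⟫ = 0 := fun i => mem_orthogonal_singleton_iff_inner_right.1 (hvF i).2
    have heu : ∀ i, ⟪e, u i⟫ = 0 := fun i => mem_orthogonal_singleton_iff_inner_right.1 (huF i).2
    have hPn : ∀ y ∈ P '' S, ‖y‖ ≤ h := by
      rintro _ ⟨x, hx, rfl⟩
      refine le_trans ?_ (hnorm x hx)
      refine le_of_pow_le_pow_left₀ two_ne_zero (norm_nonneg _) ?_
      rw [hPa, norm_sub_sq_real, real_inner_smul_right, norm_smul, hen, mul_one, Real.norm_eq_abs,
        sq_abs, real_inner_comm e x]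
      nlinarith [sq_nonneg ⟪e, x⟫]
    have hRh : R ≤ h := by
      have hm : ∀ s : ℝ, s ^ 2 = R ^ 2 → ‖c + s • v 0‖ ≤ h := fun s hs => by
        refine hPn _ ?_
        have := hdisc (Pi.single 0 s) (by simp [Pi.single_apply, ite_pow, hs])
        simpa [Pi.single_apply, ite_smul] using this
      have h1 := hm R rfl
      have h2 := hm (-R) (neg_sq R)
      have h3 := norm_sub_le (c + R • v 0) (c + (-R) • v 0)
      rw [show c + R • v 0 - (c + (-R) • v 0) = (2 * R) • v 0 by module, norm_smul, hv.1 0,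
        mul_one, Real.norm_eq_abs, abs_of_nonneg (by linarith)] at h3
      linarith
    refine ⟨(1/8 : ℝ) • c + (h / 2) • e, Fin.cons e v, Fin.cons e u, R / 8, orth_cons hen hv hev,
      orth_cons hen hu heu, ?_, ?_, by positivity, fun a ha => ?_, fun x hx => ?_⟩
    · intro i; induction i using Fin.cases with
      | zero => simpa using heF
      | succ i => simpa using (hvF i).1
    · intro i; induction i using Fin.cases with
      | zero => simpa using heF
      | succ i => simpa using (huF i).1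
    · rw [Fin.sum_univ_succ (fun i => a i ^ 2)] at ha
      have hrest : 0 ≤ ∑ i : Fin (k + 1), a i.succ ^ 2 := Finset.sum_nonneg fun i _ => sq_nonneg _
      have ha0 : |a 0| ≤ R / 8 := abs_le_of_sq_le_sq (by linarith) (by positivity)
      obtain ⟨x, hx, hxe⟩ := hdisc (fun i => 8 * a i.succ) (by
        simp only [mul_pow, ← Finset.mul_sum]
        nlinarith [sq_nonneg (a 0)])
      set s := ⟪e, x⟫ with hs
      have hsh : |s| ≤ h := (abs_real_inner_le_norm e x).trans (by rw [hen, one_mul]; exact hnorm x hx)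
      set γ := 8 / 7 * (h / 2 + a 0 - s / 8) with hγ
      obtain ⟨s1, s2⟩ := abs_le.1 hsh
      obtain ⟨t1, t2⟩ := abs_le.1 ha0
      have hγS : γ • e ∈ S := by
        rcases eq_or_ne h 0 with he0 | he0
        · have : γ = 0 := by rw [hγ]; linarith
          simpa [this] using h0
        · have hpos : 0 < h := lt_of_le_of_ne (norm_nonneg _) (Ne.symm he0)
          have := hc.smul_mem_of_zero_mem h0 hp (t := γ / h)
            ⟨div_nonneg (by linarith) hpos.le, (div_le_one hpos).2 (by linarith)⟩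
          rwa [hpe, smul_smul, div_mul_cancel₀ _ he0] at this
      have hcomb := hc hx hγS (show (0:ℝ) ≤ 1/8 by norm_num) (show (0:ℝ) ≤ 7/8 by norm_num)
        (by norm_num)
      convert hcomb using 1
      rw [hPa, ← hs, sub_eq_iff_eq_add] at hxe
      rw [hxe, Fin.sum_univ_succ]
      simp only [Fin.cons_zero, Fin.cons_succ, mul_smul, ← Finset.smul_sum, hγ]
      module
    · rw [Fin.sum_univ_succ]
      simp only [Fin.cons_zero, Fin.cons_succ]
      have := hnear (P x) ⟨x, hx, rfl⟩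
      have e1 : ∀ i, ⟪u i, P x⟫ = ⟪u i, x⟫ := fun i => by
        rw [hPa, inner_sub_right, real_inner_smul_right, real_inner_comm e, heu i, mul_zero,
          sub_zero]
      rw [Finset.sum_congr rfl fun i _ => by rw [e1 i]] at this
      rw [hPa, sub_sub] at this
      exact this.trans (le_of_eq (by ring))

/-- The whole convex set lies in a bounded neighbourhood of an affine subspace of codimension
three. -/
theorem exists_axis {m : ℕ} {g : E → ℝ} (hg : ContDiff ℝ 2 g) (hK : Convex ℝ {x | g x ≤ 0})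
    (hreg : ∀ x, g x = 0 → fderiv ℝ g x ≠ 0) (hS : ScalGe (m + 2) g)
    (hdim : Module.finrank ℝ E = m + 3) {p₀ : E} (h0 : g p₀ = 0) :
    ∃ u : Fin m → E, Orthonormal ℝ u ∧ ∀ x, g x ≤ 0 →
      ‖(x - p₀) - ∑ i, ⟪u i, x - p₀⟫ • u i‖ ≤ 2 * 8 ^ m * (12 * ((m : ℝ) + 2)) := by
  set D := 2 * 8 ^ m * (12 * ((m : ℝ) + 2)) with hD
  set T : ℕ → Set (Fin m → E) := fun N => {u | Orthonormal ℝ u} ∩
    ⋂ x ∈ {x | g x ≤ 0 ∧ ‖x - p₀‖ ≤ (N : ℝ)},
      {u | ‖(x - p₀) - ∑ i, ⟪u i, x - p₀⟫ • u i‖ ≤ D} with hT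
  have hcl : ∀ N, IsClosed (T N) := by
    intro N
    refine IsClosed.inter ?_ (isClosed_biInter fun x _ => isClosed_le (by fun_prop) continuous_const)
    simp only [orthonormal_iff_ite, ofPred_forall]
    exact isClosed_iInter fun i => isClosed_iInter fun j => isClosed_eq (by fun_prop) continuous_const
  have hne : ∀ N, (T N).Nonempty := by
    intro N
    set S := {x | g (p₀ + x) ≤ 0} ∩ Metric.closedBall (0:E) N with hSd
    obtain ⟨c, v, u, R, hv, hu, -, -, hR, hdisc, hnear⟩ := greedy m (⊤ : Submodule ℝ E)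
      (by rw [finrank_top, hdim]; omega) S
      ((isCompact_closedBall 0 _).inter_left (isClosed_le (hg.continuous.comp (by fun_prop)) continuous_const))
      ((hK.translate_preimage_right p₀).inter (convex_closedBall 0 _))
      ⟨by simp [h0], by simp⟩ (fun _ _ => trivial)
    have hRb : R ≤ 12 * ((m : ℝ) + 2) := by
      refine disc_bound hg hK hreg hS hdim (V := span ℝ (Set.range v))
        (by rw [finrank_span_eq_card hv.linearIndependent, Fintype.card_fin]) h0 (p₀ + c) ?_
      intro x hx hxn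
      obtain ⟨a, rfl⟩ := (mem_span_range_iff_exists_fun ℝ).1 hx
      have hn : ‖∑ i, a i • v i‖ ^ 2 = ∑ i, a i ^ 2 := by
        rw [← real_inner_self_eq_norm_sq, hv.inner_sum]
        simp [sq]
      rw [add_assoc]
      exact (hdisc a (hn ▸ pow_le_pow_left₀ (norm_nonneg _) hxn 2)).1
    refine ⟨u, hu, ?_⟩
    simp only [mem_iInter, mem_ofPred_eq]
    intro x hx
    exact (hnear (x - p₀) ⟨by simpa using hx.1, by simpa [mem_closedBall_zero_iff] using hx.2⟩).trans
      (mul_le_mul_of_nonneg_left hRb (by positivity))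
  have hbd : T 0 ⊆ Set.pi univ fun _ => Metric.closedBall (0:E) 1 := by
    rintro u ⟨hu, -⟩ i -
    rw [mem_closedBall_zero_iff, hu.1 i]
  obtain ⟨u, hu⟩ := IsCompact.nonempty_iInter_of_sequence_nonempty_isCompact_isClosed T
    (fun N u hu => ⟨hu.1, by
      simp only [mem_iInter] at hu ⊢
      exact fun x hx => by
        have := hu.2
        simp only [mem_iInter] at this
        exact this x ⟨hx.1, hx.2.trans (by push_cast; linarith)⟩⟩) hne
    ((isCompact_univ_pi fun _ => isCompact_closedBall 0 1).of_isClosed_subset (hcl 0) hbd) hcl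
  rw [mem_iInter] at hu
  refine ⟨u, (hu 0).1, fun x hx => ?_⟩
  obtain ⟨N, hN⟩ := exists_nat_ge ‖x - p₀‖
  have := (hu N).2
  simp only [mem_iInter] at this
  exact this x ⟨hx, hN⟩

end Vale.Agent.P210.Convex
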