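import Vale.Agent.P210.Convex.Contact

/-! Convex bodies whose boundary has scalar curvature at least one contain no large disc of
codimension two. -/

open Set Filter Topology Submodule
open scoped RealInnerProductSpace

namespace Vale.Agent.P210.Convex

variable {E : Type*} [NormedAddCommGroup E] [InnerProductSpace ℝ E] [FiniteDimensional ℝ E]
  {g : E → ℝ} {m : ℕ}

lemma neg_of_interior (hreg : ∀ x, g x = 0 → fderiv ℝ g x ≠ 0) {z : E}
    (hz : z ∈ interior {x | g x ≤ 0}) : g z < 0 := by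
  have h1 : ∀ᶠ x in 𝓝 z, g x ≤ 0 := mem_interior_iff_mem_nhds.1 hz
  exact lt_of_le_of_ne h1.self_of_nhds fun e => hreg z e (fderiv_eq_zero_of_nhds e h1)

lemma exists_neg (hg : ContDiff ℝ 2 g) (hreg : ∀ x, g x = 0 → fderiv ℝ g x ≠ 0) {y₀ : E}
    (h0 : g y₀ = 0) : ∃ o, o ∈ interior {x | g x ≤ 0} := by
  obtain ⟨o, ho⟩ : ∃ o, g o < 0 := by
    by_contra hno
    push Not at hno
    exact hreg y₀ h0 (IsLocalMin.fderiv_eq_zero
      (Filter.Eventually.of_forall fun x => h0 ▸ hno x))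
  exact ⟨o, mem_interior_iff_mem_nhds.2 ((hg.continuous.continuousAt.eventually
    (gt_mem_nhds ho)).mono fun x hx => le_of_lt hx)⟩

lemma exists_shrink (hg : Continuous g) {x : E} (hx : 0 < g x) :
    ∃ t : ℝ, 0 < t ∧ t < 1 ∧ 0 < g (t • x) := by
  have hc : Continuous fun t : ℝ => g (t • x) := hg.comp (by fun_prop)
  have hev : ∀ᶠ t in 𝓝[<] (1:ℝ), 0 < g (t • x) :=
    (hc.continuousAt.eventually (lt_mem_nhds (a := 0) (by simpa using hx))).filter_mono
      nhdsWithin_le_nhds
  obtain ⟨t, ht, ht2⟩ := (hev.and (Ioo_mem_nhdsLT zero_lt_one)).exists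
  exact ⟨t, ht2.1, ht2.2, ht⟩

lemma quad_smul (V : Submodule ℝ E) (r a t : ℝ) (x : E) :
    quad V r a (t • x) = t ^ 2 * quad V r a x := by
  simp only [quad, map_smul, ← smul_sub, norm_smul, Real.norm_eq_abs, mul_pow, sq_abs]
  ring

/-- A disc strictly inside, centred at the origin. -/
theorem disc_centred (hg : ContDiff ℝ 2 g) (hK : Convex ℝ {x | g x ≤ 0})
    (hreg : ∀ x, g x = 0 → fderiv ℝ g x ≠ 0) (hS : ScalGe (m + 2) g)
    (hdim : Module.finrank ℝ E = m + 3) {V : Submodule ℝ E} (hV : Module.finrank ℝ V = m + 1)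
    {r : ℝ} (hr : 0 < r) (hdisc : ∀ x ∈ V, ‖x‖ ≤ 2 * r → g x < 0) {y₀ : E} (h0 : g y₀ = 0) :
    r ≤ 3 * ((m : ℝ) + 2) := by
  by_cases hball : ∀ z, ‖z‖ ≤ r → g z ≤ 0
  · -- the largest ball about the origin
    obtain ⟨y, hyS, hymin⟩ := (isClosed_le continuous_const hg.continuous).exists_infDist_eq_dist
      (s := {x | 0 ≤ g x}) ⟨y₀, h0.ge⟩ (0 : E)
    set ρ := ‖y‖ with hρ
    have hlt : ∀ x, ‖x‖ < ρ → g x < 0 := by
      intro x hx
      by_contra hc
      push Not at hc
      have := Metric.infDist_le_dist_of_mem (x := (0:E)) (show x ∈ {x | 0 ≤ g x} from hc)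
      rw [hymin, dist_zero_left, dist_zero_left] at this
      linarith
    have hrρ : r ≤ ρ := by
      by_contra hc
      push Not at hc
      have hnh : ∀ᶠ x in 𝓝 y, g x ≤ 0 :=
        (continuous_norm.continuousAt.eventually (gt_mem_nhds hc)).mono fun x hx => hball x hx.le
      have e : g y = 0 := le_antisymm hnh.self_of_nhds hyS
      exact hreg y e (fderiv_eq_zero_of_nhds e hnh)
    have hρ0 : 0 < ρ := hr.trans_le hrρ
    have hle : ∀ x, ‖x‖ ≤ ρ → g x ≤ 0 := by
      intro x hx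
      by_contra hc
      push Not at hc
      obtain ⟨t, ht0, ht1, ht⟩ := exists_shrink hg.continuous hc
      have : ‖t • x‖ < ρ := by
        rw [norm_smul, Real.norm_eq_abs, abs_of_pos ht0]
        nlinarith [norm_nonneg x]
      linarith [hlt _ this]
    have hy : g y = 0 := le_antisymm (hle y le_rfl) hyS
    set b := stdOrthonormalBasis ℝ ((ℝ ∙ y)ᗮ : Submodule ℝ E)
    have hb : m + 1 ≤ Module.finrank ℝ ((ℝ ∙ y)ᗮ : Submodule ℝ E) := by
      have h2 := finrank_add_finrank_orthogonal (ℝ ∙ y)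
      have : Module.finrank ℝ (ℝ ∙ y) ≤ 1 := (finrank_span_le_card _).trans (by simp)
      omega
    set u : Fin (m + 1) → E := fun i => (b (Fin.castLE hb i) : E) with hu
    have huo : Orthonormal ℝ u :=
      ((ℝ ∙ y)ᗮ.subtypeₗᵢ.orthonormal_comp_iff.2 b.orthonormal).comp _ (Fin.castLE_injective hb)
    set V' := span ℝ (Set.range u) with hV'
    have hV'd : Module.finrank ℝ V' = m + 1 := by
      rw [hV', finrank_span_eq_card huo.linearIndependent, Fintype.card_fin]
    have hPy : V'.starProjection y = 0 := by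
      refine (starProjection_apply_eq_zero_iff V').2 fun x hx => ?_
      have hsub : V' ≤ (ℝ ∙ y)ᗮ := span_le.2 (by rintro _ ⟨i, rfl⟩; exact (b _).2)
      rw [real_inner_comm]
      exact mem_orthogonal_singleton_iff_inner_right.1 (hsub hx)
    have hq : ∀ x, quad V' ρ ρ x = ‖x‖ ^ 2 / ρ ^ 2 := fun x => by
      rw [quad, norm_sq_parts V' x]; ring
    refine hrρ.trans (contact_bound hg hK hreg hS hdim hV'd hρ0 le_rfl hy ?_ ?_ ?_)
    · rw [hq, ← hρ, div_self (by positivity)]
    · intro x hx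
      rw [hq, div_le_one (by positivity)] at hx
      exact hle x (le_of_pow_le_pow_left₀ two_ne_zero hρ0.le hx)
    · rw [hPy, norm_zero]; positivity
  -- the largest ellipsoid over the disc
  push Not at hball
  obtain ⟨z₀, hz₀, hgz₀⟩ := hball
  set S := Metric.closedBall (0:E) r ∩ {x | 0 ≤ g x} with hSdef
  have hScpt : IsCompact S := (isCompact_closedBall 0 r).inter_right
    (isClosed_le continuous_const hg.continuous)
  have hz₀S : z₀ ∈ S := ⟨by simpa using hz₀, hgz₀.le⟩
  have hden : ∀ x ∈ S, ‖x - V.starProjection x‖ ≠ 0 ∧ 0 < r ^ 2 - ‖V.starProjection x‖ ^ 2 := by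
    intro x hx
    have hxr : ‖x‖ ≤ r := by simpa using hx.1
    have hne : ‖x - V.starProjection x‖ ≠ 0 := by
      intro e
      rw [norm_eq_zero, sub_eq_zero] at e
      have hxV : x ∈ V := e ▸ starProjection_apply_mem V x
      linarith [hdisc x hxV (by linarith), (show 0 ≤ g x from hx.2)]
    have := norm_sq_parts V x
    refine ⟨hne, ?_⟩
    have : 0 < ‖x - V.starProjection x‖ ^ 2 := by positivity
    nlinarith [norm_nonneg x]
  obtain ⟨y, hyS, hmin⟩ := hScpt.exists_isMinOn ⟨z₀, hz₀S⟩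
    (f := fun x => ‖x - V.starProjection x‖ ^ 2 / (r ^ 2 - ‖V.starProjection x‖ ^ 2))
    (ContinuousOn.div (by fun_prop) (by fun_prop) fun x hx => (hden x hx).2.ne')
  set μ := ‖y - V.starProjection y‖ ^ 2 / (r ^ 2 - ‖V.starProjection y‖ ^ 2) with hμ
  obtain ⟨hy1, hy2⟩ := hden y hyS
  have hμ0 : 0 < μ := div_pos (by positivity) hy2
  have hμ1 : μ ≤ 1 := by
    refine le_trans (hmin hz₀S) ((div_le_one (hden z₀ hz₀S).2).2 ?_)
    have := norm_sq_parts V z₀
    nlinarith [norm_nonneg z₀]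
  set a := r * Real.sqrt μ with ha
  have ha0 : 0 < a := by positivity
  have har : a ≤ r := mul_le_of_le_one_right hr.le (Real.sqrt_le_one.2 hμ1)
  have ha2 : a ^ 2 = r ^ 2 * μ := by rw [ha, mul_pow, Real.sq_sqrt hμ0.le]
  have hin : ∀ x, quad V r a x ≤ 1 → g x ≤ 0 := by
    intro x hx
    by_contra hc
    push Not at hc
    obtain ⟨t, ht0, ht1, ht⟩ := exists_shrink hg.continuous hc
    have hq : quad V r a (t • x) < 1 := by
      rw [quad_smul]
      have h0 : 0 ≤ quad V r a x := by unfold quad; positivity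
      nlinarith [pow_lt_one₀ ht0.le ht1 two_ne_zero]
    rw [quad, ha2] at hq
    set P := V.starProjection (t • x) with hP
    set W := t • x - P with hW
    have hWr : ‖W‖ ^ 2 / r ^ 2 ≤ ‖W‖ ^ 2 / (r ^ 2 * μ) :=
      div_le_div_of_nonneg_left (sq_nonneg _) (by positivity) (mul_le_of_le_one_right (sq_nonneg r) hμ1)
    have hxr : ‖t • x‖ ≤ r := by
      refine le_of_pow_le_pow_left₀ two_ne_zero hr.le ?_
      rw [norm_sq_parts V, ← hP, ← hW, ← div_le_one (by positivity), add_div]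
      linarith
    have hxS : t • x ∈ S := ⟨by simpa using hxr, ht.le⟩
    have h2 : μ ≤ ‖W‖ ^ 2 / (r ^ 2 - ‖P‖ ^ 2) := hmin hxS
    rw [le_div_iff₀ (hden _ hxS).2] at h2
    rw [div_add_div _ _ (by positivity) (by positivity), div_lt_one (by positivity)] at hq
    nlinarith [pow_pos hr 2]
  have hqy : quad V r a y = 1 := by
    have e : ‖y - V.starProjection y‖ ^ 2 = μ * (r ^ 2 - ‖V.starProjection y‖ ^ 2) := by
      rw [hμ, div_mul_cancel₀ _ hy2.ne']
    rw [quad, ha2, e]
    field_simp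
    ring
  have hy : g y = 0 := le_antisymm (hin y hqy.le) hyS.2
  obtain ⟨hl, hDeq⟩ := normal_eq hg hK hy (hreg y hy) hqy hin
  refine contact_bound hg hK hreg hS hdim hV ha0 har hy hqy hin ?_
  set p := V.starProjection y with hp
  rcases eq_or_ne p 0 with h | h
  · rw [h, norm_zero]; positivity
  have hpn : 0 < ‖p‖ := norm_pos_iff.2 h
  set x := (2 * r / ‖p‖) • p with hx
  have hxV : x ∈ V := smul_mem _ _ (starProjection_apply_mem V y)
  have hxn : ‖x‖ ≤ 2 * r := by
    rw [hx, norm_smul, Real.norm_eq_abs, abs_of_pos (by positivity), div_mul_cancel₀ _ hpn.ne']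
  have h1 := first_order hg hK hy (hdisc x hxV hxn).le
  rw [map_sub, hDeq x, inner_quadVec, starProjection_eq_self_iff.2 hxV, sub_self, inner_zero_right,
    zero_div, add_zero, hx, real_inner_smul_right, ← hp, real_inner_self_eq_norm_sq] at h1
  have h2 : 2 * r / ‖p‖ * ‖p‖ ^ 2 / r ^ 2 ≤ 1 := by
    by_contra hc
    push Not at hc
    nlinarith
  have e : 2 * r / ‖p‖ * ‖p‖ ^ 2 / r ^ 2 = 2 * ‖p‖ / r := by field_simp
  rw [e, div_le_one hr] at h2
  linarith

/-- Any disc of codimension two inside. -/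
theorem disc_bound (hg : ContDiff ℝ 2 g) (hK : Convex ℝ {x | g x ≤ 0})
    (hreg : ∀ x, g x = 0 → fderiv ℝ g x ≠ 0) (hS : ScalGe (m + 2) g)
    (hdim : Module.finrank ℝ E = m + 3) {V : Submodule ℝ E} (hV : Module.finrank ℝ V = m + 1)
    {y₀ : E} (h0 : g y₀ = 0) (c : E) {R : ℝ} (hdisc : ∀ x ∈ V, ‖x‖ ≤ R → g (c + x) ≤ 0) :
    R ≤ 12 * ((m : ℝ) + 2) := by
  by_contra hc
  push Not at hc
  have hR : 0 < R := lt_trans (by positivity) hc
  obtain ⟨o, ho⟩ := exists_neg hg hreg h0
  set c' := (1/2 : ℝ) • o + (1/2 : ℝ) • c with hc'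
  set g' : E → ℝ := fun z => g (c' + z) with hg'
  have hf : ∀ z, fderiv ℝ g' z = fderiv ℝ g (c' + z) := fun z => by
    simp only [hg']; exact fderiv_comp_add_left c'
  have hf2 : ∀ z, fderiv ℝ (fderiv ℝ g') z = fderiv ℝ (fderiv ℝ g) (c' + z) := fun z => by
    rw [show fderiv ℝ g' = fun z => fderiv ℝ g (c' + z) from funext hf]
    exact fderiv_comp_add_left (f := fderiv ℝ g) c'
  have hdiscI : ∀ x ∈ V, ‖x‖ ≤ 2 * (R / 4) → g' x < 0 := by
    intro x hx hxn
    refine neg_of_interior hreg ?_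
    have hmem : c + (2:ℝ) • x ∈ {z | g z ≤ 0} := hdisc _ (smul_mem _ _ hx)
      (by rw [norm_smul, Real.norm_eq_abs, abs_of_pos two_pos]; linarith)
    have := hK.combo_interior_self_mem_interior ho hmem (show (0:ℝ) < 1/2 by norm_num)
      (show (0:ℝ) ≤ 1/2 by norm_num) (by norm_num)
    convert this using 1
    simp only [hc']
    module
  have := disc_centred (g := g') (hg.comp (by fun_prop)) (hK.translate_preimage_right c')
    (fun z hz => hf z ▸ hreg _ hz)
    (fun z hz v hv hv0 => by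
      have h := hS _ hz v hv fun i => by rw [← hf]; exact hv0 i
      simpa only [hess, hf, hf2] using h)
    hdim hV (by positivity) hdiscI (y₀ := y₀ - c') (by simp [hg', h0])
  linarith

end Vale.Agent.P210.Convex
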