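import Vale.Agent.P210.Convex.Cover

/-! Intrinsic diameter of the fibres: nearest-point projections in planar slices. -/

open Set Filter Topology Submodule
open scoped RealInnerProductSpace NNReal

namespace Vale.Agent.P210.Convex

/-- Two points of a bounded closed convex planar set which have outer normals are joined in the
set of nearest points of exterior points by a short path. -/
theorem plane_path {C : Set ℂ} (hC : IsClosed C) (hc : Convex ℝ C) {D : ℝ} (hD : 0 < D)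
    (hball : ∀ z ∈ C, ‖z‖ ≤ D) {p q Np Nq : ℂ} (hp : p ∈ C) (hq : q ∈ C) (hNp : Np ≠ 0)
    (hNq : Nq ≠ 0) (hsp : ∀ z ∈ C, ⟪Np, z - p⟫ ≤ 0) (hsq : ∀ z ∈ C, ⟪Nq, z - q⟫ ≤ 0) :
    ∃ γ : ℝ → ℂ, γ 0 = p ∧ γ 1 = q ∧ LipschitzWith (Real.toNNReal (4 * Real.pi * D)) γ ∧
      ∀ t, γ t ∈ C ∧ ∃ x ∉ C, ∀ z ∈ C, ⟪x - γ t, z - γ t⟫ ≤ 0 := by
  have hex : ∀ x, ∃ v ∈ C, ∀ z ∈ C, ⟪x - v, z - v⟫ ≤ 0 := fun x => by
    obtain ⟨v, hv, he⟩ := exists_norm_eq_iInf_of_complete_convex ⟨p, hp⟩ hC.isComplete hc x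
    exact ⟨v, hv, (norm_eq_iInf_iff_real_inner_le_zero hc hv).1 he⟩
  choose π₀ hπC hπ using hex
  have hnon : ∀ x y a b, a ∈ C → b ∈ C → (∀ z ∈ C, ⟪x - a, z - a⟫ ≤ 0) →
      (∀ z ∈ C, ⟪y - b, z - b⟫ ≤ 0) → ‖a - b‖ ≤ ‖x - y‖ := by
    intro x y a b ha hb h1 h2
    have e : ⟪x - y, a - b⟫ = ‖a - b‖ ^ 2 - ⟪x - a, b - a⟫ - ⟪y - b, a - b⟫ := by
      rw [← real_inner_self_eq_norm_sq, show b - a = -(a - b) by abel, inner_neg_right,
        sub_neg_eq_add, ← inner_add_left, ← inner_sub_left]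
      congr 1; abel
    have h3 := real_inner_le_norm (x - y) (a - b)
    have := h1 b hb; have := h2 a ha
    nlinarith [norm_nonneg (a - b), norm_nonneg (x - y)]
  have exit : ∀ r N : ℂ, r ∈ C → N ≠ 0 → (∀ z ∈ C, ⟪N, z - r⟫ ≤ 0) →
      ∃ θ : ℝ, |θ| ≤ Real.pi ∧ π₀ ((2 * D : ℝ) * Complex.exp (θ * Complex.I)) = r := by
    intro r N hr hN hs
    set S := 3 * D / ‖N‖ with hS
    have hSN : ‖(S : ℝ) • N‖ = 3 * D := by
      rw [norm_smul, Real.norm_eq_abs, abs_of_pos (by positivity), hS,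
        div_mul_cancel₀ _ (norm_ne_zero_iff.2 hN)]
    have hcont : Continuous fun s : ℝ => ‖r + s • N‖ := by fun_prop
    have hmem : (2 * D) ∈ Icc ‖r + (0:ℝ) • N‖ ‖r + S • N‖ := by
      have h1 := hball r hr
      refine ⟨by simp; linarith, ?_⟩
      have := norm_sub_le (r + S • N) r
      rw [add_sub_cancel_left, hSN] at this
      linarith
    obtain ⟨s, hs', he⟩ := intermediate_value_Icc (show 0 ≤ S by positivity) hcont.continuousOn hmem
    refine ⟨Complex.arg (r + s • N), Complex.abs_arg_le_pi _, ?_⟩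
    have e : ((2 * D : ℝ) : ℂ) * Complex.exp (Complex.arg (r + s • N) * Complex.I) = r + s • N := by
      have := Complex.norm_mul_exp_arg_mul_I (r + s • N)
      have he' : ‖r + s • N‖ = 2 * D := he
      rwa [he'] at this
    rw [e]
    have := hnon (r + s • N) (r + s • N) (π₀ (r + s • N)) r (hπC _) hr (hπ _) (fun z hz => by
      rw [add_sub_cancel_left, real_inner_smul_left]
      exact mul_nonpos_of_nonneg_of_nonpos hs'.1 (hs z hz))
    rw [sub_self, norm_zero] at this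
    exact sub_eq_zero.1 (norm_le_zero_iff.1 this)
  obtain ⟨a, ha, hpa⟩ := exit p Np hp hNp hsp
  obtain ⟨b, hb, hqb⟩ := exit q Nq hq hNq hsq
  set w : ℝ → ℂ := fun t => (2 * D : ℝ) * Complex.exp (((a + t * (b - a) : ℝ) : ℂ) * Complex.I)
    with hw
  have hw' : ∀ t, HasDerivAt w ((2 * D : ℝ) * (Complex.exp (((a + t * (b - a) : ℝ) : ℂ) * Complex.I)
      * (((b - a : ℝ) : ℂ) * Complex.I))) t := by
    intro t
    have h1 : HasDerivAt (fun t : ℝ => a + t * (b - a)) (b - a) t := by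
      simpa using ((hasDerivAt_id t).mul_const (b - a)).const_add a
    exact ((h1.ofReal_comp.mul_const Complex.I).cexp).const_mul _
  have hwL : LipschitzWith (Real.toNNReal (4 * Real.pi * D)) w := by
    refine lipschitzWith_of_nnnorm_deriv_le (fun t => (hw' t).differentiableAt) fun t => ?_
    rw [← NNReal.coe_le_coe, coe_nnnorm, Real.coe_toNNReal _ (by positivity), (hw' t).deriv,
      norm_mul, norm_mul, Complex.norm_exp_ofReal_mul_I, norm_mul, Complex.norm_I,
      Complex.norm_real, Complex.norm_real, Real.norm_eq_abs, Real.norm_eq_abs,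
      abs_of_pos (show 0 < 2 * D by positivity), one_mul, mul_one]
    have : |b - a| ≤ 2 * Real.pi := (abs_sub b a).trans (by linarith)
    nlinarith
  have hπL : LipschitzWith 1 π₀ := LipschitzWith.of_dist_le_mul fun x y => by
    rw [dist_eq_norm, dist_eq_norm, NNReal.coe_one, one_mul]
    exact hnon x y _ _ (hπC x) (hπC y) (hπ x) (hπ y)
  refine ⟨π₀ ∘ w, ?_, ?_, by simpa using hπL.comp hwL, fun t => ⟨hπC _, w t, fun hin => ?_, hπ _⟩⟩
  · simpa [hw] using hpa
  · simpa [hw] using hqb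
  · have := hball _ hin
    rw [hw, norm_mul, Complex.norm_exp_ofReal_mul_I, Complex.norm_real, Real.norm_eq_abs,
      abs_of_pos (by positivity), mul_one] at this
    linarith

variable {E : Type*} [NormedAddCommGroup E] [InnerProductSpace ℝ E] [FiniteDimensional ℝ E]
  {g : E → ℝ} {m : ℕ}

/-- Fibres of the projection to the axis have bounded intrinsic diameter. -/
theorem fibre_path (hg : ContDiff ℝ 2 g) (hK : Convex ℝ {x | g x ≤ 0})
    (hreg : ∀ x, g x = 0 → fderiv ℝ g x ≠ 0) (hdim : Module.finrank ℝ E = m + 3)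
    {u : Fin m → E} (hu : Orthonormal ℝ u) {p₀ : E} {D : ℝ} (hD : 0 < D)
    (hnear : ∀ x, g x ≤ 0 → ‖(x - p₀) - ∑ i, ⟪u i, x - p₀⟫ • u i‖ ≤ D)
    {p q : E} (hp : g p = 0) (hq : g q = 0) (hpq : ∀ i, ⟪u i, p⟫ = ⟪u i, q⟫) :
    ∃ γ : ℝ → E, γ 0 = p ∧ γ 1 = q ∧ (∀ t ∈ Icc (0:ℝ) 1, g (γ t) = 0) ∧
      LipschitzWith (Real.toNNReal (4 * Real.pi * D)) γ := by
  set d : E → E := fun x => (x - p₀) - ∑ i, ⟪u i, x - p₀⟫ • u i with hd
  have hfib : ∀ x, (∀ i, ⟪u i, x⟫ = ⟪u i, p⟫) → g x ≤ 0 → ‖x - (p - d p)‖ ≤ D := by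
    intro x hx hgx
    have e : x - (p - d p) = d x := by
      simp only [hd, inner_sub_right, hx]
      abel
    rw [e]
    exact hnear x hgx
  have hseg : ∀ t ∈ Icc (0:ℝ) 1, g (p + t • (q - p)) ≤ 0 := fun t ht =>
    hK.add_smul_sub_mem (show g p ≤ 0 from hp.le) (show g q ≤ 0 from hq.le) ht
  have hline : ∀ t : ℝ, ∀ i, ⟪u i, p + t • (q - p)⟫ = ⟪u i, p⟫ := fun t i => by
    simp [inner_add_right, real_inner_smul_right, inner_sub_right, hpq]
  by_cases hflat : ∀ t ∈ Icc (0:ℝ) 1, g (p + t • (q - p)) = 0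
  · refine ⟨fun t => p + t • (q - p), by simp, by simp, hflat, ?_⟩
    refine LipschitzWith.of_dist_le_mul fun s t => ?_
    rw [dist_eq_norm, dist_eq_norm, Real.coe_toNNReal _ (by positivity),
      show p + s • (q - p) - (p + t • (q - p)) = (s - t) • (q - p) by module, norm_smul, mul_comm]
    refine mul_le_mul_of_nonneg_right ?_ (norm_nonneg _)
    have h1 := hfib p (fun _ => rfl) hp.le
    have h2 := hfib q (fun i => (hpq i).symm) hq.le
    have h3 := norm_sub_le (q - (p - d p)) (p - (p - d p))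
    rw [show q - (p - d p) - (p - (p - d p)) = q - p by abel] at h3
    nlinarith [Real.pi_gt_three]
  push Not at hflat
  obtain ⟨t₀, ht₀, hne⟩ := hflat
  set o := p + t₀ • (q - p) with ho
  have hgo : g o < 0 := lt_of_le_of_ne (hseg t₀ ht₀) hne
  have hqp : q - p ≠ 0 := fun e => hne (by simp [ho, e, hp])
  set h := ‖q - p‖ with hh
  have hh0 : 0 < h := norm_pos_iff.2 hqp
  set e₁ := h⁻¹ • (q - p) with he₁
  have he₁n : ‖e₁‖ = 1 := norm_smul_inv_norm hqp
  have hue₁ : ∀ i, ⟪u i, e₁⟫ = 0 := fun i => by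
    simp [he₁, real_inner_smul_right, inner_sub_right, hpq]
  obtain ⟨e₂, he₂, he₂n⟩ := exists_unit (span ℝ (Set.range (Fin.cons e₁ u : Fin (m + 1) → E)))ᗮ (by
    have h1 := finrank_add_finrank_orthogonal (span ℝ (Set.range (Fin.cons e₁ u : Fin (m + 1) → E)))
    have h2 := finrank_range_le_card (R := ℝ) (Fin.cons e₁ u : Fin (m + 1) → E)
    simp only [Fintype.card_fin, Set.finrank] at h2
    omega)
  have he₂' : ∀ j, ⟪(Fin.cons e₁ u : Fin (m + 1) → E) j, e₂⟫ = 0 := fun j =>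
    inner_right_of_mem_orthogonal (subset_span (Set.mem_range_self j)) he₂
  have h12 : ⟪e₁, e₂⟫ = 0 := by simpa using he₂' 0
  have hue₂ : ∀ i, ⟪u i, e₂⟫ = 0 := fun i => by simpa using he₂' i.succ
  have h11 : ⟪e₁, e₁⟫ = 1 := by rw [real_inner_self_eq_norm_sq, he₁n, one_pow]
  have h22 : ⟪e₂, e₂⟫ = 1 := by rw [real_inner_self_eq_norm_sq, he₂n, one_pow]
  have h21 : ⟪e₂, e₁⟫ = 0 := (real_inner_comm _ _).trans h12
  have hhe : h • e₁ = q - p := by rw [he₁, smul_inv_smul₀ hh0.ne']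
  clear_value e₁
  set c' := p - d p with hc'
  set A := ⟪e₁, p - c'⟫ with hA
  set B := ⟪e₂, p - c'⟫ with hB
  set ctr := p - A • e₁ - B • e₂ with hctr
  set ι : ℂ → E := fun z => ctr + (z.re • e₁ + z.im • e₂) with hι
  have hiso : ∀ z : ℂ, ‖z.re • e₁ + z.im • e₂‖ = ‖z‖ := fun z => by
    rw [← sq_eq_sq₀ (norm_nonneg _) (norm_nonneg _), ← real_inner_self_eq_norm_sq, Complex.sq_norm,
      Complex.normSq_apply]
    simp only [inner_add_left, inner_add_right, real_inner_smul_left, real_inner_smul_right, h11,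
      h22, h12, h21]
    ring
  have hιfib : ∀ z i, ⟪u i, ι z⟫ = ⟪u i, p⟫ := fun z i => by
    simp [hι, hctr, inner_add_right, inner_sub_right, real_inner_smul_right, hue₁, hue₂]
  set C := {z : ℂ | g (ι z) ≤ 0} with hC
  have hιc : Continuous ι := by fun_prop
  have hCcl : IsClosed C := isClosed_le (hg.continuous.comp hιc) continuous_const
  have hCcv : Convex ℝ C := by
    intro z hz w hw a b ha hb hab
    have e : ι (a • z + b • w) = a • ι z + b • ι w := by
      simp only [hι, Complex.add_re, Complex.add_im, Complex.smul_re, Complex.smul_im, smul_eq_mul]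
      rw [show b = 1 - a by linarith]
      module
    show g (ι (a • z + b • w)) ≤ 0
    rw [e]
    exact hK hz hw ha hb hab
  have hball : ∀ z ∈ C, ‖z‖ ≤ D := by
    intro z hz
    refine le_trans ?_ (hfib (ι z) (hιfib z) hz)
    set r := p - c' - A • e₁ - B • e₂ with hr
    have e : ι z - c' = r + (z.re • e₁ + z.im • e₂) := by simp only [hι, hctr, hr]; abel
    have o1 : ⟪r, e₁⟫ = 0 := by
      rw [real_inner_comm, hr, inner_sub_right, inner_sub_right, real_inner_smul_right,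
        real_inner_smul_right, h11, h12, ← hA]
      ring
    have o2 : ⟪r, e₂⟫ = 0 := by
      rw [real_inner_comm, hr, inner_sub_right, inner_sub_right, real_inner_smul_right,
        real_inner_smul_right, h22, real_inner_comm e₁ e₂, h12, ← hB]
      ring
    rw [e, ← hiso z]
    refine le_of_pow_le_pow_left₀ two_ne_zero (norm_nonneg _) ?_
    rw [norm_add_sq_real r, inner_add_right, real_inner_smul_right, real_inner_smul_right, o1, o2]
    nlinarith [sq_nonneg ‖r‖]
  set zp : ℂ := ⟨A, B⟩ with hzp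
  set zq : ℂ := ⟨A + h, B⟩ with hzq
  have hιp : ι zp = p := by simp only [hι, hzp, hctr]; abel
  have hιq : ι zq = q := by
    simp only [hι, hzq, hctr, add_smul, hhe]; abel
  have normal : ∀ r : ℂ, g (ι r) = 0 → fderiv ℝ g (ι r) e₁ ≠ 0 → ∀ N : ℂ,
      N = ⟨fderiv ℝ g (ι r) e₁, fderiv ℝ g (ι r) e₂⟩ → N ≠ 0 ∧ ∀ z ∈ C, ⟪N, z - r⟫ ≤ 0 := by
    intro r hr hne N hN
    refine ⟨fun e => hne ?_, fun z hz => ?_⟩
    · have := congrArg Complex.re e
      simpa [hN] using this
    · have h1 := first_order hg hK hr hz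
      have e : ι z - ι r = (z - r).re • e₁ + (z - r).im • e₂ := by
        simp only [hι, Complex.sub_re, Complex.sub_im, sub_smul]; abel
      rw [e, map_add, map_smul, map_smul, smul_eq_mul, smul_eq_mul] at h1
      refine le_of_eq_of_le ?_ h1
      rw [Complex.inner, hN]
      simp [Complex.mul_re]
  have hpe : fderiv ℝ g p e₁ ≠ 0 := by
    intro e
    have h1 := first_order_strict hg hK hp (hreg p hp) hgo
    rw [ho, add_sub_cancel_left, ← hhe, map_smul, map_smul, e] at h1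
    simp at h1
  have hqe : fderiv ℝ g q e₁ ≠ 0 := by
    intro e
    have h1 := first_order_strict hg hK hq (hreg q hq) hgo
    rw [ho, show p + t₀ • (q - p) - q = (t₀ - 1) • (q - p) by module, ← hhe, map_smul, map_smul,
      e] at h1
    simp at h1
  obtain ⟨hNp, hsp⟩ := normal zp (hιp ▸ hp) (hιp.symm ▸ hpe) _ rfl
  obtain ⟨hNq, hsq⟩ := normal zq (hιq ▸ hq) (hιq.symm ▸ hqe) _ rfl
  obtain ⟨γ, hγ0, hγ1, hγL, hγ⟩ := plane_path hCcl hCcv hD hball
    (show g (ι zp) ≤ 0 by rw [hιp, hp]) (show g (ι zq) ≤ 0 by rw [hιq, hq]) hNp hNq hsp hsq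
  refine ⟨ι ∘ γ, by simp [hγ0, hιp], by simp [hγ1, hιq], fun t _ => ?_, ?_⟩
  · obtain ⟨hmem, x, hxC, hx⟩ := hγ t
    refine le_antisymm (show g (ι (γ t)) ≤ 0 from hmem) (le_of_not_gt fun hlt => hxC ?_)
    have hev : ∀ᶠ s in 𝓝[>] (0:ℝ), g (ι (γ t + s • (x - γ t))) < 0 := by
      have hcn : Continuous fun s : ℝ => g (ι (γ t + s • (x - γ t))) :=
        hg.continuous.comp (hιc.comp (by fun_prop))
      have h0 : g (ι (γ t + (0:ℝ) • (x - γ t))) < 0 := by simpa using hlt
      exact (hcn.tendsto 0).eventually (gt_mem_nhds h0) |>.filter_mono nhdsWithin_le_nhds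
    obtain ⟨s, hs, hs0⟩ := (hev.and self_mem_nhdsWithin).exists
    have h2 := hx _ (show γ t + s • (x - γ t) ∈ C from le_of_lt hs)
    rw [add_sub_cancel_left, real_inner_smul_right, real_inner_self_eq_norm_sq] at h2
    have : x = γ t := by
      by_contra hne'
      have : 0 < s * ‖x - γ t‖ ^ 2 := mul_pos hs0 (pow_pos (norm_pos_iff.2 (sub_ne_zero.2 hne')) 2)
      linarith
    rw [this]; exact hmem
  · have hιL : LipschitzWith 1 ι := LipschitzWith.of_dist_le_mul fun a b => by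
      rw [dist_eq_norm, dist_eq_norm, NNReal.coe_one, one_mul, ← hiso (a - b)]
      refine le_of_eq (congrArg _ ?_)
      simp only [hι, Complex.sub_re, Complex.sub_im, sub_smul]; abel
    simpa using hιL.comp hγL

end Vale.Agent.P210.Convex
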